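import Mathlib

/-!
P186 (helper570): Malcev's theorem: a nontrivial element of the image of a finitely generated group
in `GL_n(K)`, `K` a field, survives in a finite quotient.
-/

namespace Vale.Agent.P186.H570

universe u v

instance isJacobsonRing_int : IsJacobsonRing ℤ := by
  rw [isJacobsonRing_iff_prime_eq]
  intro P hP
  by_cases h : P = ⊥
  · subst h
    rw [eq_bot_iff]
    intro n hn
    rw [Ideal.mem_bot]
    by_contra hne
    rw [Ideal.mem_jacobson_bot] at hn
    have h1 := hn 3
    have h2 := hn (-3)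
    rw [Int.isUnit_iff] at h1 h2
    rcases h1 with h1 | h1 <;> rcases h2 with h2 | h2 <;> omega
  · have := hP.isMaximal h
    exact Ideal.jacobson_eq_self_of_isMaximal

/-- a field of finite type over `ℤ` is finite -/
theorem finite_of_finiteType_int' (k : Type u) [Field k] [Algebra.FiniteType ℤ k] : Finite k := by
  have h1 : Module.Finite ℤ k := finite_of_finite_type_of_isJacobsonRing ℤ k
  have h2 : ¬ Function.Injective (algebraMap ℤ k) := by
    intro hinj
    have := isField_of_isIntegral_of_isField hinj (Field.toIsField k)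
    exact Int.not_isField this
  have h3 : ∃ n : ℤ, n ≠ 0 ∧ (n : k) = 0 := by
    by_contra hcon
    push Not at hcon
    apply h2
    rw [injective_iff_map_eq_zero]
    intro a ha
    by_contra hne
    exact hcon a hne (by simpa using ha)
  obtain ⟨n, hn, hn0⟩ := h3
  apply Module.finite_of_fg_torsion k
  intro x
  refine ⟨⟨n, mem_nonZeroDivisors_of_ne_zero hn⟩, ?_⟩
  change n • x = 0
  rw [zsmul_eq_mul, hn0, zero_mul]

theorem finite_of_finiteType_int (k : Type u) [Field k] [alg : Algebra ℤ k]
    [h : Algebra.FiniteType ℤ k] : Finite k := by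
  obtain rfl : alg = Ring.toIntAlgebra k := Subsingleton.elim _ _
  exact finite_of_finiteType_int' k

theorem exists_maximal_notMem {K : Type u} [Field K] (A : Subalgebra ℤ K) (hA : A.FG) (a : A)
    (ha : a ≠ 0) : ∃ m : Ideal A, m.IsMaximal ∧ a ∉ m := by
  have : Algebra.FiniteType ℤ A := Subalgebra.fg_iff_finiteType A |>.1 hA
  have hJ : IsJacobsonRing A := isJacobsonRing_of_finiteType (A := ℤ)
  by_contra hcon
  push Not at hcon
  have h1 : a ∈ (⊥ : Ideal A).jacobson := by
    rw [Ideal.jacobson, Ideal.mem_sInf]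
    intro I hI
    exact hcon I hI.2
  rw [← Ideal.radical_eq_jacobson, Ideal.mem_radical_iff] at h1
  obtain ⟨n, hn⟩ := h1
  exact ha (eq_zero_of_pow_eq_zero hn)

/-- Malcev: every homomorphism from a finitely generated group to `GL_n` over a field can be
detected on finite quotients. -/
theorem malcev {G : Type u} [Group G] [Group.FG G] {K : Type v} [Field K] {n : ℕ}
    (f : G →* GL (Fin n) K) (g : G) (hg : f g ≠ 1) :
    ∃ (N : Subgroup G) (_ : N.Normal), g ∉ N ∧ Finite (G ⧸ N) := by
  classical
  obtain ⟨S, hS⟩ := Group.fg_def.1 (inferInstance : Group.FG G)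
  let E : Finset K := (S ∪ S.image (fun x => x⁻¹)).biUnion fun s =>
    Finset.univ.image (fun p : Fin n × Fin n => (f s : Matrix (Fin n) (Fin n) K) p.1 p.2)
  let A : Subalgebra ℤ K := Algebra.adjoin ℤ (E : Set K)
  have hA : A.FG := Subalgebra.fg_adjoin_finset E
  have hE : ∀ s ∈ S ∪ S.image (fun x => x⁻¹), ∀ i j,
      (f s : Matrix (Fin n) (Fin n) K) i j ∈ A := by
    intro s hs i j
    apply Algebra.subset_adjoin
    exact Finset.mem_coe.2 (Finset.mem_biUnion.2 ⟨s, hs, Finset.mem_image.2
      ⟨(i, j), Finset.mem_univ _, rfl⟩⟩)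
  have hall : ∀ x : G, (∀ i j, (f x : Matrix (Fin n) (Fin n) K) i j ∈ A) ∧
      (∀ i j, (f x⁻¹ : Matrix (Fin n) (Fin n) K) i j ∈ A) := by
    intro x
    have hx : x ∈ Subgroup.closure (S : Set G) := by rw [hS]; trivial
    induction hx using Subgroup.closure_induction with
    | mem x hx =>
      exact ⟨hE x (Finset.mem_union_left _ hx), hE x⁻¹ (Finset.mem_union_right _
        (Finset.mem_image_of_mem _ hx))⟩
    | one =>
      have h1 : ∀ i j, ((f 1 : GL (Fin n) K) : Matrix (Fin n) (Fin n) K) i j ∈ A := by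
        intro i j
        rw [map_one, Units.val_one, Matrix.one_apply]
        split_ifs
        · exact A.one_mem
        · exact A.zero_mem
      exact ⟨h1, by rw [inv_one]; exact h1⟩
    | mul x y _ _ hx hy =>
      constructor
      · intro i j
        rw [map_mul, Units.val_mul, Matrix.mul_apply]
        exact A.sum_mem fun k _ => A.mul_mem (hx.1 i k) (hy.1 k j)
      · intro i j
        rw [mul_inv_rev, map_mul, Units.val_mul, Matrix.mul_apply]
        exact A.sum_mem fun k _ => A.mul_mem (hy.2 i k) (hx.2 k j)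
    | inv x _ hx => exact ⟨hx.2, by rw [inv_inv]; exact hx.1⟩
  let φ : G →* Matrix (Fin n) (Fin n) A :=
    { toFun := fun x => Matrix.of fun i j => ⟨(f x : Matrix (Fin n) (Fin n) K) i j, (hall x).1 i j⟩
      map_one' := by
        ext i j
        simp only [map_one, Units.val_one, Matrix.of_apply, Matrix.one_apply]
        split_ifs <;> rfl
      map_mul' := by
        intro x y
        ext i j
        simp only [map_mul, Units.val_mul, Matrix.of_apply, Matrix.mul_apply,
          AddSubmonoidClass.coe_finsetSum, MulMemClass.coe_mul] }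
  obtain ⟨i, j, hij⟩ : ∃ i j, φ g i j - (1 : Matrix (Fin n) (Fin n) A) i j ≠ 0 := by
    by_contra hcon
    push Not at hcon
    apply hg
    apply Units.ext
    ext i j
    have h1 := congrArg (Subtype.val) (sub_eq_zero.1 (hcon i j))
    have h2 : ((φ g i j : A) : K) = (f g : Matrix (Fin n) (Fin n) K) i j := rfl
    rw [h2] at h1
    rw [h1, Units.val_one, Matrix.one_apply, Matrix.one_apply]
    split_ifs <;> rfl
  obtain ⟨m, hm, ham⟩ := exists_maximal_notMem A hA _ hij
  letI : Field (A ⧸ m) := Ideal.Quotient.field m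
  have hft : Algebra.FiniteType ℤ A := (Subalgebra.fg_iff_finiteType A).1 hA
  have hft' : Algebra.FiniteType ℤ (A ⧸ m) :=
    Algebra.FiniteType.of_surjective (Ideal.Quotient.mkₐ ℤ m) (Ideal.Quotient.mkₐ_surjective ℤ m)
  have hfin : Finite (A ⧸ m) := finite_of_finiteType_int (A ⧸ m)
  let ψ : G →* Matrix (Fin n) (Fin n) (A ⧸ m) :=
    ((Ideal.Quotient.mk m).mapMatrix : Matrix (Fin n) (Fin n) A →+*
      Matrix (Fin n) (Fin n) (A ⧸ m)).toMonoidHom.comp φ
  have hfin' : Finite (Matrix (Fin n) (Fin n) (A ⧸ m)) := inferInstance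
  have hfin'' : Finite (Matrix (Fin n) (Fin n) (A ⧸ m))ˣ := inferInstance
  refine ⟨ψ.toHomUnits.ker, inferInstance, ?_, ?_⟩
  · intro hk
    have h1 : ψ g = 1 := congrArg Units.val (show ψ.toHomUnits g = 1 from hk)
    apply ham
    rw [← Ideal.Quotient.eq_zero_iff_mem, map_sub, sub_eq_zero]
    have h2 : (Ideal.Quotient.mk m) (φ g i j) = ψ g i j := rfl
    rw [h2, h1, Matrix.one_apply, Matrix.one_apply]
    split_ifs <;> simp
  · exact Finite.of_injective (QuotientGroup.kerLift ψ.toHomUnits)
      (QuotientGroup.kerLift_injective _)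

end Vale.Agent.P186.H570
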