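import Mathlib
import Vale.Agent.P194.Bdl.B1

/-!
P186 (helper570): elementary facts about sofic groups, and elements killed by every homomorphism
to a sofic group.
-/

namespace Vale.Agent.P186.H570

open Vale.Agent.P194 Finset

universe u v w

/-- soficity may be checked with arbitrary nonempty finite sets -/
theorem isSofic_of_fintype {G : Type u} [Group G]
    (h : ∀ (F : Finset G) (ε : ℝ), 0 < ε → ∃ (X : Type w) (_ : Fintype X) (_ : DecidableEq X)
      (_ : Nonempty X) (φ : G → Equiv.Perm X),
      (∀ g ∈ F, ∀ h ∈ F, (({x | φ g (φ h x) ≠ φ (g * h) x} : Finset X).card : ℝ) ≤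
        ε * Fintype.card X) ∧
      (∀ g ∈ F, g ≠ 1 → (({x | φ g x = x} : Finset X).card : ℝ) ≤ ε * Fintype.card X)) :
    IsSofic G := by
  intro F ε hε
  obtain ⟨X, _, _, _, φ, h1, h2⟩ := h F ε hε
  let e : X ≃ Fin (Fintype.card X) := Fintype.equivFin X
  refine ⟨Fintype.card X, fun g => e.permCongr (φ g), Fintype.card_pos, ?_, ?_⟩
  · intro g hg h' hh'
    refine le_trans (le_of_eq ?_) (h1 g hg h' hh')
    norm_cast
    refine Finset.card_bij (fun x _ => e.symm x) ?_ ?_ ?_
    · intro x hx
      simp only [Finset.mem_filter, Finset.mem_univ, true_and, Equiv.permCongr_apply,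
        Equiv.symm_apply_apply, ne_eq, EmbeddingLike.apply_eq_iff_eq] at hx ⊢
      exact hx
    · intro x _ y _ hxy
      exact e.symm.injective hxy
    · intro x hx
      refine ⟨e x, ?_, by simp⟩
      simp only [Finset.mem_filter, Finset.mem_univ, true_and, Equiv.permCongr_apply,
        Equiv.symm_apply_apply, ne_eq, EmbeddingLike.apply_eq_iff_eq] at hx ⊢
      exact hx
  · intro g hg hg1
    refine le_trans (le_of_eq ?_) (h2 g hg hg1)
    norm_cast
    refine Finset.card_bij (fun x _ => e.symm x) ?_ ?_ ?_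
    · intro x hx
      have hx' : e (φ g (e.symm x)) = x := (Finset.mem_filter.1 hx).2
      refine Finset.mem_filter.2 ⟨Finset.mem_univ _, ?_⟩
      conv_rhs => rw [← hx']
      simp
    · intro x _ y _ hxy
      exact e.symm.injective hxy
    · intro x hx
      have hx' : φ g x = x := (Finset.mem_filter.1 hx).2
      refine ⟨e x, Finset.mem_filter.2 ⟨Finset.mem_univ _, ?_⟩, by simp⟩
      rw [Equiv.permCongr_apply, Equiv.symm_apply_apply, hx']

/-- a group with an injective homomorphism to a sofic group is sofic -/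
theorem isSofic_of_injective {G : Type u} {Q : Type v} [Group G] [Group Q] (f : G →* Q)
    (hf : Function.Injective f) (hQ : IsSofic Q) : IsSofic G := by
  classical
  intro F ε hε
  obtain ⟨d, φ, hd, h1, h2⟩ := hQ (F.image f) ε hε
  refine ⟨d, fun g => φ (f g), hd, ?_, ?_⟩
  · intro g hg h' hh'
    have := h1 (f g) (Finset.mem_image_of_mem f hg) (f h') (Finset.mem_image_of_mem f hh')
    simpa only [map_mul] using this
  · intro g hg hg1
    exact h2 (f g) (Finset.mem_image_of_mem f hg) (fun h => hg1 (hf (by rw [h, map_one])))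

/-- finite groups are sofic -/
theorem isSofic_of_finite {Q : Type u} [Group Q] [Finite Q] : IsSofic Q := by
  classical
  have : Fintype Q := Fintype.ofFinite Q
  refine isSofic_of_fintype.{u, u} fun F ε hε => ⟨Q, inferInstance, inferInstance, ⟨1⟩,
    fun g => Equiv.mulLeft g, ?_, ?_⟩
  · intro g _ h' _
    have : ({x | (Equiv.mulLeft g) ((Equiv.mulLeft h') x) ≠ (Equiv.mulLeft (g * h')) x} :
        Finset Q) = ∅ := by
      ext x
      simp [mul_assoc]
    rw [this]
    simp only [Finset.card_empty, Nat.cast_zero]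
    positivity
  · intro g _ hg1
    have : ({x | (Equiv.mulLeft g) x = x} : Finset Q) = ∅ := by
      ext x
      simp [hg1]
    rw [this]
    simp only [Finset.card_empty, Nat.cast_zero]
    positivity

/-- the product of two sofic groups is sofic -/
theorem isSofic_prod {A : Type u} {B : Type v} [Group A] [Group B] (hA : IsSofic A)
    (hB : IsSofic B) : IsSofic (A × B) := by
  classical
  refine isSofic_of_fintype.{max u v, 0} fun F ε hε => ?_
  obtain ⟨m, φ, hm, hφ1, hφ2⟩ := hA (F.image Prod.fst) (ε / 2) (by positivity)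
  obtain ⟨n, ψ, hn, hψ1, hψ2⟩ := hB (F.image Prod.snd) (ε / 2) (by positivity)
  have : Nonempty (Fin m) := ⟨⟨0, hm⟩⟩
  have : Nonempty (Fin n) := ⟨⟨0, hn⟩⟩
  have hm' : (0 : ℝ) < m := by exact_mod_cast hm
  have hn' : (0 : ℝ) < n := by exact_mod_cast hn
  refine ⟨Fin m × Fin n, inferInstance, inferInstance, inferInstance,
    fun g => Equiv.prodCongr (φ g.1) (ψ g.2), ?_, ?_⟩
  · intro g hg h' hh'
    have e1 := hφ1 g.1 (Finset.mem_image_of_mem _ hg) h'.1 (Finset.mem_image_of_mem _ hh')
    have e2 := hψ1 g.2 (Finset.mem_image_of_mem _ hg) h'.2 (Finset.mem_image_of_mem _ hh')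
    have hsub : ({x | (Equiv.prodCongr (φ g.1) (ψ g.2)) ((Equiv.prodCongr (φ h'.1) (ψ h'.2)) x) ≠
        (Equiv.prodCongr (φ (g * h').1) (ψ (g * h').2)) x} : Finset (Fin m × Fin n)) ⊆
        (({x | φ g.1 (φ h'.1 x) ≠ φ (g.1 * h'.1) x} : Finset (Fin m)) ×ˢ Finset.univ) ∪
        (Finset.univ ×ˢ ({x | ψ g.2 (ψ h'.2 x) ≠ ψ (g.2 * h'.2) x} : Finset (Fin n))) := by
      intro x hx
      simp only [Finset.mem_filter, Finset.mem_univ, true_and, Finset.mem_union,
        Finset.mem_product, and_true] at hx ⊢
      by_contra hcon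
      push Not at hcon
      apply hx
      apply Prod.ext
      · exact hcon.1
      · exact hcon.2
    have h3 : ((({x | (Equiv.prodCongr (φ g.1) (ψ g.2))
        ((Equiv.prodCongr (φ h'.1) (ψ h'.2)) x) ≠
        (Equiv.prodCongr (φ (g * h').1) (ψ (g * h').2)) x} : Finset (Fin m × Fin n)).card : ℕ) : ℝ)
        ≤ (({x | φ g.1 (φ h'.1 x) ≠ φ (g.1 * h'.1) x} : Finset (Fin m)).card * n +
          m * ({x | ψ g.2 (ψ h'.2 x) ≠ ψ (g.2 * h'.2) x} : Finset (Fin n)).card : ℝ) := by
      have := (Finset.card_le_card hsub).trans (Finset.card_union_le _ _)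
      rw [Finset.card_product, Finset.card_product, Finset.card_univ, Finset.card_univ,
        Fintype.card_fin, Fintype.card_fin] at this
      exact_mod_cast this
    refine h3.trans ?_
    rw [Fintype.card_prod, Fintype.card_fin, Fintype.card_fin]
    push_cast
    nlinarith
  · intro g hg hg1
    rw [Fintype.card_prod, Fintype.card_fin, Fintype.card_fin]
    push_cast
    by_cases h1 : g.1 = 1
    · have h2 : g.2 ≠ 1 := fun h2 => hg1 (Prod.ext h1 h2)
      have e2 := hψ2 g.2 (Finset.mem_image_of_mem _ hg) h2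
      have hsub : ({x | (Equiv.prodCongr (φ g.1) (ψ g.2)) x = x} : Finset (Fin m × Fin n)) ⊆
          (Finset.univ ×ˢ ({x | ψ g.2 x = x} : Finset (Fin n))) := by
        intro x hx
        simp only [Finset.mem_filter, Finset.mem_univ, true_and,
          Finset.mem_product] at hx ⊢
        exact congrArg Prod.snd hx
      have h3 : ((({x | (Equiv.prodCongr (φ g.1) (ψ g.2)) x = x} :
          Finset (Fin m × Fin n)).card : ℕ) : ℝ) ≤
          m * (({x | ψ g.2 x = x} : Finset (Fin n)).card : ℝ) := by
        have := Finset.card_le_card hsub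
        rw [Finset.card_product, Finset.card_univ, Fintype.card_fin] at this
        exact_mod_cast this
      refine h3.trans ?_
      have h5 : (m : ℝ) * (({x | ψ g.2 x = x} : Finset (Fin n)).card : ℝ) ≤
          m * (ε / 2 * n) := mul_le_mul_of_nonneg_left e2 hm'.le
      have h6 : (0 : ℝ) ≤ ε * m * n := by positivity
      nlinarith
    · have e1 := hφ2 g.1 (Finset.mem_image_of_mem _ hg) h1
      have hsub : ({x | (Equiv.prodCongr (φ g.1) (ψ g.2)) x = x} : Finset (Fin m × Fin n)) ⊆
          (({x | φ g.1 x = x} : Finset (Fin m)) ×ˢ Finset.univ) := by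
        intro x hx
        simp only [Finset.mem_filter, Finset.mem_univ, true_and,
          Finset.mem_product, and_true] at hx ⊢
        exact congrArg Prod.fst hx
      have h3 : ((({x | (Equiv.prodCongr (φ g.1) (ψ g.2)) x = x} :
          Finset (Fin m × Fin n)).card : ℕ) : ℝ) ≤
          (({x | φ g.1 x = x} : Finset (Fin m)).card : ℝ) * n := by
        have := Finset.card_le_card hsub
        rw [Finset.card_product, Finset.card_univ, Fintype.card_fin] at this
        exact_mod_cast this
      refine h3.trans ?_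
      have h5 : (({x | φ g.1 x = x} : Finset (Fin m)).card : ℝ) * n ≤
          ε / 2 * m * n := mul_le_mul_of_nonneg_right e1 hn'.le
      have h6 : (0 : ℝ) ≤ ε * m * n := by positivity
      nlinarith

/-- the image of a homomorphism to a sofic group is sofic -/
theorem isSofic_quot_ker {G : Type u} {Q : Type v} [Group G] [Group Q] (f : G →* Q)
    (hQ : IsSofic Q) : IsSofic (G ⧸ f.ker) :=
  isSofic_of_injective (QuotientGroup.kerLift f) (QuotientGroup.kerLift_injective f) hQ

/-- finitely many elements, each of them surviving in a sofic quotient, survive in a common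
sofic quotient -/
theorem exists_common {G : Type u} [Group G] (T : Finset G)
    (hT : ∀ g ∈ T, ∃ (N : Subgroup G) (_ : N.Normal), g ∉ N ∧ IsSofic (G ⧸ N)) :
    ∃ (N : Subgroup G) (_ : N.Normal), (∀ g ∈ T, g ∉ N) ∧ IsSofic (G ⧸ N) := by
  classical
  induction T using Finset.induction_on with
  | empty =>
    refine ⟨⊤, inferInstance, by simp, ?_⟩
    have : Subsingleton (G ⧸ (⊤ : Subgroup G)) := QuotientGroup.subsingleton_quotient_top
    exact isSofic_of_finite
  | insert g T hgT ih =>
    obtain ⟨N, hN, h1, h2⟩ := ih fun x hx => hT x (Finset.mem_insert_of_mem hx)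
    obtain ⟨N', hN', h1', h2'⟩ := hT g (Finset.mem_insert_self _ _)
    let f : G →* (G ⧸ N) × (G ⧸ N') := (QuotientGroup.mk' N).prod (QuotientGroup.mk' N')
    refine ⟨f.ker, inferInstance, ?_, isSofic_quot_ker f (isSofic_prod h2 h2')⟩
    intro x hx hxk
    have hx1 : f x = 1 := hxk
    rcases Finset.mem_insert.1 hx with rfl | hx
    · exact h1' ((QuotientGroup.eq_one_iff x).1 (congrArg Prod.snd hx1))
    · exact h1 x hx ((QuotientGroup.eq_one_iff x).1 (congrArg Prod.fst hx1))

/-- the group algebra over `F_2` of a sofic group is directly finite (Elek and Szabo) -/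
theorem sofic_df {Q : Type u} [Group Q] (hQ : IsSofic Q) (a b : MonoidAlgebra (ZMod 2) Q)
    (hab : a * b = 1) : b * a = 1 := by
  have : Fact (Nat.Prime 2) := ⟨Nat.prime_two⟩
  have h := sofic_matrix (K := ZMod 2) hQ (Matrix.diagonal (fun _ : Unit => a))
    (Matrix.diagonal (fun _ : Unit => b)) (by
      rw [Matrix.diagonal_mul_diagonal, hab, Matrix.diagonal_one])
  rw [Matrix.diagonal_mul_diagonal] at h
  have := congrArg (fun M : Matrix Unit Unit (MonoidAlgebra (ZMod 2) Q) => M () ()) h
  simpa using this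

/-- if `F_2[G]` is not directly finite, then some nontrivial element of `G` dies in every sofic
quotient of `G` -/
theorem exists_killed {G : Type u} [Group G] {a b : MonoidAlgebra (ZMod 2) G} (hab : a * b = 1)
    (hba : b * a ≠ 1) :
    ∃ g : G, g ≠ 1 ∧ ∀ (N : Subgroup G) [N.Normal], IsSofic (G ⧸ N) → g ∈ N := by
  classical
  by_contra hcon
  push Not at hcon
  set c := b * a - 1 with hc
  have hc0 : c ≠ 0 := sub_ne_zero.2 hba
  obtain ⟨g, hg⟩ : ∃ g, c.coeff g ≠ 0 := by
    by_contra hall
    push Not at hall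
    exact hc0 (MonoidAlgebra.ext (Finsupp.ext hall))
  obtain ⟨N, hN1, hN2, hN3⟩ := exists_common ((c.coeff.support.erase g).image fun x => g⁻¹ * x) (by
    intro x hx
    obtain ⟨N, hN, h1, h2⟩ := hcon x (by
      rintro rfl
      obtain ⟨y, hy, hy1⟩ := Finset.mem_image.1 hx
      exact (Finset.mem_erase.1 hy).1 (inv_mul_eq_one.1 hy1).symm)
    exact ⟨N, hN, h2, h1⟩)
  let π : G →* G ⧸ N := QuotientGroup.mk' N
  let f := MonoidAlgebra.mapDomainRingHom (ZMod 2) π
  have h1 : f b * f a = 1 := by
    refine sofic_df hN3 _ _ ?_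
    rw [← map_mul, hab, map_one]
  have h2 : f c = 0 := by rw [hc, map_sub, map_mul, h1, map_one, sub_self]
  have h3 : (f c).coeff (π g) = c.coeff g := by
    change Finsupp.mapDomain π c.coeff (π g) = c.coeff g
    rw [Finsupp.mapDomain, Finsupp.sum_apply, Finsupp.sum, Finset.sum_eq_single g]
    · simp
    · intro x hx hxg
      rw [Finsupp.single_apply, if_neg]
      intro heq
      refine hN2 (g⁻¹ * x) (Finset.mem_image.2 ⟨x, Finset.mem_erase.2 ⟨hxg, hx⟩, rfl⟩) ?_
      exact QuotientGroup.eq.1 heq.symm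
    · intro hg'
      rw [Finsupp.notMem_support_iff.1 hg', Finsupp.single_zero, Finsupp.zero_apply]
  rw [h2] at h3
  exact hg h3.symm

end Vale.Agent.P186.H570
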