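import Vale.Agent.P201.Bd3.B4
import Vale.Agent.P201.Bd3.B3
import Vale.Agent.P201.Bd3.B1
import Vale.Agent.P186.H570.Sofic
import Vale.Agent.P186.H570.Malcev

/-!
P186 (helper570): a torsion-free word-hyperbolic group which is not sofic, with one nontrivial
element killed by all homomorphisms to sofic groups and by all linear representations.
-/

namespace Vale.Agent.P186.H570

open Vale.Agent.P194 Vale.Agent.P186.Hyp Vale.Agent.P201.S

universe u v w

theorem main :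
    ∃ (G : Type) (_ : Group G), (∀ g : G, ∀ m : ℕ, 0 < m → g ^ m = 1 → g = 1) ∧
      Vale.Agent.P186.IsHyperbolicGroup G ∧ ¬ Group.ResiduallyFinite G ∧ ¬ IsSofic G ∧
      (∃ g : G, g ≠ 1 ∧
        (∀ (Q : Type u) [Group Q], IsSofic Q → ∀ f : G →* Q, f g = 1) ∧
        (∀ (K : Type v) [Field K] (n : ℕ) (f : G →* GL (Fin n) K), f g = 1)) ∧
      (∀ (K : Type w) [Field K] [CharP K 2],
        ∃ a b : MonoidAlgebra K G, a * b = 1 ∧ b * a ≠ 1) := by
  obtain ⟨S, σ, e1, he1, Y, htor, hlin, a, b, hab, hba⟩ :=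
    Vale.Agent.P194.M.data Vale.Agent.P201.S.stmtLoc Vale.Agent.P201.S.stmtGlob
      Vale.Agent.P201.S.stmtTor
  have hhyp : Vale.Agent.P186.IsHyperbolicGroup (Gp σ) :=
    hyperbolic_machine Hyp.lin Hyp.graph Hyp.conn σ e1 he1 Y hlin
  have hfg : Group.FG (Gp σ) := by
    obtain ⟨T, hT, _⟩ := hhyp
    exact ⟨⟨T, hT⟩⟩
  obtain ⟨g, hg, hN⟩ := exists_killed hab hba
  have hsof : ∀ (Q : Type u) [Group Q], IsSofic Q → ∀ f : Gp σ →* Q, f g = 1 :=
    fun Q _ hQ f => hN f.ker (isSofic_quot_ker f hQ)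
  refine ⟨Gp σ, inferInstance, htor, hhyp, fun hrf => hba (Hyp.rf (Gp σ) hrf a b hab),
    fun hs => hba (sofic_df hs a b hab), ⟨g, hg, hsof, ?_⟩,
    fun K _ _ => Vale.Agent.P194.M.base_change hab hba K⟩
  intro K _ n f
  by_contra hne
  obtain ⟨N, hNn, h1, h2⟩ := malcev f g hne
  exact h1 (hN N isSofic_of_finite)

end Vale.Agent.P186.H570
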